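import Vale.Agent.P050.V3.Spec
import Vale.Agent.P050.H23.GI

/-!
P050, v3 (helper283): the ladders with arbitrary deleted rungs: [LADS].
-/

set_option autoImplicit false
set_option linter.unusedSectionVars false

namespace Vale.Agent.P050.V3.H283

open Finset Vale.Agent.P050.H148 Vale.Agent.P050.Cart Vale.Agent.P050.M18 Vale.Agent.P050.H546
open Vale.Agent.P050.H222

variable {U : Type} [Fintype U] [DecidableEq U]

theorem zl_zero (A : U → U → ℝ) (P : ℕ → Bool) (R y : U × U) :
    zl A P 0 R y = if R = y then 1 else 0 := rfl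

theorem zl_succ (A : U → U → ℝ) (P : ℕ → Bool) (n : ℕ) (R y : U × U) :
    zl A P (n + 1) R y =
      ∑ c, zl A P n R c * (A c.1 y.1 * A c.2 y.2 * (if P (n + 1) then A y.1 y.2 else 1)) := rfl

theorem zl_nonneg {A : U → U → ℝ} (hA : ∀ x y, 0 ≤ A x y) (P : ℕ → Bool) (n : ℕ) (R y : U × U) :
    0 ≤ zl A P n R y := by
  induction n generalizing y with
  | zero =>
    rw [zl_zero]
    split_ifs <;> norm_num
  | succ n ih =>
    rw [zl_succ]
    refine Finset.sum_nonneg fun c _ => mul_nonneg (ih c)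
      (mul_nonneg (mul_nonneg (hA _ _) (hA _ _)) ?_)
    split_ifs
    · exact hA _ _
    · norm_num

/-- one more step of both walks -/
theorem two_step (A : U → U → ℝ) (B : U × U → ℝ) (j : ℕ) (y : U × U) (w : ℝ) :
    ∑ c : U × U, (∑ x : U × U, B x * (zp A j x.1 c.1 * zp A j x.2 c.2)) *
        (A c.1 y.1 * A c.2 y.2 * w) =
      ∑ x : U × U, B x * (zp A (j + 1) x.1 y.1 * zp A (j + 1) x.2 y.2 * w) := by
  simp_rw [Finset.sum_mul]
  rw [Finset.sum_comm]
  refine Finset.sum_congr rfl fun x _ => ?_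
  have h1 : zp A (j + 1) x.1 y.1 = ∑ c, zp A j x.1 c * A c y.1 := rfl
  have h2 : zp A (j + 1) x.2 y.2 = ∑ c, zp A j x.2 c * A c y.2 := rfl
  rw [h1, h2, Finset.sum_mul_sum, Finset.sum_mul, Finset.mul_sum, Fintype.sum_prod_type]
  refine Finset.sum_congr rfl fun c _ => ?_
  rw [Finset.sum_mul, Finset.mul_sum]
  exact Finset.sum_congr rfl fun d _ => by ring

/-- no rung among `n0 + 1, ..., n0 + j` -/
theorem zl_gap (A : U → U → ℝ) (P : ℕ → Bool) (n0 : ℕ) (R : U × U) (j : ℕ)
    (hj : ∀ i, i < j → P (n0 + i + 1) = false) (y : U × U) :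
    zl A P (n0 + j) R y = ∑ x, zl A P n0 R x * (zp A j x.1 y.1 * zp A j x.2 y.2) := by
  induction j generalizing y with
  | zero =>
    rw [Finset.sum_eq_single y]
    · simp [zp]
    · intro x _ hx
      have h : ¬ (x.1 = y.1 ∧ x.2 = y.2) := fun h => hx (Prod.ext h.1 h.2)
      by_cases h1 : x.1 = y.1
      · have h2 : x.2 ≠ y.2 := fun h2 => h ⟨h1, h2⟩
        simp [zp, h2]
      · simp [zp, h1]
    · intro hn
      exact absurd (mem_univ _) hn
  | succ j ih =>
    have h0 : P (n0 + j + 1) = false := hj j (Nat.lt_succ_self j)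
    have h1 : n0 + (j + 1) = (n0 + j) + 1 := rfl
    rw [h1, zl_succ, h0]
    have h2 : ∀ c : U × U, zl A P (n0 + j) R c =
        ∑ x, zl A P n0 R x * (zp A j x.1 c.1 * zp A j x.2 c.2) :=
      fun c => ih (fun i hi => hj i (Nat.lt_succ_of_lt hi)) c
    simp_rw [h2]
    rw [two_step A (fun x => zl A P n0 R x) j y]
    exact Finset.sum_congr rfl fun x _ => by simp

/-- the rung `n0 + j + 1` is present, none among `n0 + 1, ..., n0 + j` -/
theorem zl_long (A : U → U → ℝ) (P : ℕ → Bool) (n0 : ℕ) (R : U × U) (j : ℕ)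
    (hj : ∀ i, i < j → P (n0 + i + 1) = false) (h0 : P (n0 + j + 1) = true) (y : U × U) :
    zl A P (n0 + j + 1) R y = ∑ x, zl A P n0 R x * KL A (j + 1) x y := by
  rw [zl_succ, h0]
  simp_rw [zl_gap A P n0 R j hj]
  rw [two_step A (fun x => zl A P n0 R x) j y]
  exact Finset.sum_congr rfl fun x _ => by simp [KL]

theorem nr_succ (P : ℕ → Bool) (n : ℕ) : nr P (n + 1) = nr P n + if P (n + 1) then 1 else 0 := by
  unfold nr
  rw [Finset.range_add_one, Finset.filter_insert]
  split_ifs with h
  · rw [Finset.card_insert_of_notMem]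
    simp
  · rfl

theorem ns_succ (P : ℕ → Bool) (n : ℕ) :
    ns P (n + 1) = ns P n + if P n ∧ P (n + 1) then 1 else 0 := by
  unfold ns
  rw [Finset.range_add_one, Finset.filter_insert]
  split_ifs with h
  · rw [Finset.card_insert_of_notMem]
    simp
  · rfl

theorem nr_gap (P : ℕ → Bool) (n0 j : ℕ) (hj : ∀ i, i < j → P (n0 + i + 1) = false) :
    nr P (n0 + j) = nr P n0 := by
  induction j with
  | zero => rfl
  | succ j ih =>
    have h1 : n0 + (j + 1) = (n0 + j) + 1 := rfl
    rw [h1, nr_succ, hj j (Nat.lt_succ_self j), ih fun i hi => hj i (Nat.lt_succ_of_lt hi)]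
    simp

theorem ns_gap (P : ℕ → Bool) (n0 j : ℕ) (hj : ∀ i, i < j → P (n0 + i + 1) = false) :
    ns P (n0 + j) = ns P n0 := by
  induction j with
  | zero => rfl
  | succ j ih =>
    have h1 : n0 + (j + 1) = (n0 + j) + 1 := rfl
    rw [h1, ns_succ, hj j (Nat.lt_succ_self j), ih fun i hi => hj i (Nat.lt_succ_of_lt hi)]
    simp

theorem lad_mono {Q : U × U → ℝ} {n : ℕ} {Z : U × U → U × U → ℝ}
    {F : (U × U) × (U × U) → ℝ} {v w : ℝ} (h : Lad Q n Z F v) (hw : w ≤ v) : Lad Q n Z F w :=
  ⟨h.lab, h.low, h.sup, hw.trans h.va⟩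

/-- **[LADS]** -/
theorem lads_of (hL : LongStmt) : LadsStmt := by
  intro U _ _ A Q hE hA hQA P n h0
  induction n using Nat.strong_induction_on with
  | _ n ih =>
    intro hn
    rcases Nat.eq_zero_or_pos n with rfl | hpos
    · refine ⟨PP Q 0, PP_lab hE 0, rfl, ?_, ?_⟩
      · intro x hx
        rw [PP0_ne hE hx, zl_zero]
        simp
      · have e1 : Cart.ent (PP Q 0) (fun x => x) = hQ Q := hP_zero hE
        have e2 : ∑ x, PP Q 0 x * Real.log (zl A P 0 x.1 x.2) = 0 := by
          refine Finset.sum_eq_zero fun x _ => ?_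
          by_cases hx : PP Q 0 x = 0
          · rw [hx, zero_mul]
          · rw [PP0_ne hE hx, zl_zero]
            simp
        rw [e1, e2]
        have h1 : nr P 0 = 0 := rfl
        have h2 : ns P 0 = 0 := rfl
        rw [h1, h2]
        simp
    · have hg : ∃ n0 j, n = n0 + j + 1 ∧ P n0 = true ∧ ∀ i, i < j → P (n0 + i + 1) = false := by
        refine ⟨Nat.findGreatest (fun i => P i = true) (n - 1),
          n - 1 - Nat.findGreatest (fun i => P i = true) (n - 1), ?_, ?_, ?_⟩
        · have := Nat.findGreatest_le (P := fun i => P i = true) (n - 1)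
          omega
        · exact Nat.findGreatest_spec (P := fun i => P i = true) (Nat.zero_le (n - 1)) h0
        · intro i hi
          have h1 := Nat.findGreatest_is_greatest (P := fun i => P i = true) (n := n - 1)
            (k := Nat.findGreatest (fun i => P i = true) (n - 1) + i + 1) (by omega) (by omega)
          simpa using h1
      obtain ⟨n0, j, rfl, hP0, hj⟩ := hg
      obtain ⟨F, hF⟩ := ih n0 (by omega) hP0
      obtain ⟨F', hF'⟩ := hL U A Q hE hA hQA n0 (j + 1) (zl A P n0) F _ (by omega)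
        (fun x y => zl_nonneg hA P n0 x y) hF
      have hz : (fun R y => ∑ x, zl A P n0 R x * KL A (j + 1) x y) = zl A P (n0 + j + 1) := by
        funext R y
        exact (zl_long A P n0 R j hj hn y).symm
      rw [hz] at hF'
      refine ⟨F', lad_mono hF' ?_⟩
      have hr : nr P (n0 + j + 1) = nr P n0 + 1 := by
        rw [nr_succ, nr_gap P n0 j hj, if_pos hn]
      obtain ⟨hi1, hi2, hi3, hi4⟩ := H23.gInf U Q hE
      rw [hr, ns_succ, ns_gap P n0 j hj]
      rcases Nat.eq_zero_or_pos j with rfl | hj0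
      · rw [if_pos ⟨hP0, hn⟩]
        push_cast
        have h3 : hh Q (0 + 1 + 1) = h2Q Q := hi1
        rw [h3]
        apply le_of_eq
        ring
      · have h4 : P (n0 + j) = false := by
          have := hj (j - 1) (by omega)
          have h5 : n0 + (j - 1) + 1 = n0 + j := by omega
          rwa [h5] at this
        rw [if_neg (by rw [h4]; simp)]
        have h5 := hi2 (j + 1 + 1)
        push_cast
        linarith

end Vale.Agent.P050.V3.H283
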